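import Crest.Agent.R115.Space

/-!
Failure of the bounded approximation property.
-/

set_option autoImplicit false

namespace Crest.Agent.R115

open Crest.AnalysisR

attribute [local instance] metMM

/-- the centre with a prescribed residue class at level `j` -/
noncomputable def ctr (j : ℕ) (x : Qt (NN j)) : Ctr := Function.update 1 j x

lemma ctr_self (j : ℕ) (x : Qt (NN j)) : ctr j x j = x := Function.update_self _ _ _

lemma pairing_eq_sum (a : PP.Mol) (B : Finset MM) (hB : (PP.coeffs a).support ⊆ B)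
    (h : MM → ℝ) : PP.pairing a h = ∑ m ∈ B, PP.coeffs a m * h m :=
  Finsupp.sum_of_support_subset _ hB (fun x r => r * h x) (fun _ _ => by simp)

open Classical in
/-- the transported weight -/
noncomputable def kap (j : ℕ) (B : Finset MM) (a : PP.Mol) (X : Ctr) (k : Fin 3 → ℤ) : ℝ :=
  ∑ m ∈ B, PP.coeffs a m * chiM j X m * if clsM X m = k then 1 else 0

open Classical in
lemma sum_kap (j : ℕ) (B : Finset MM) (a : PP.Mol) (hB : (PP.coeffs a).support ⊆ B) (X : Ctr)
    (K : Finset (Fin 3 → ℤ)) (σ : (Fin 3 → ℤ) → ℝ) (g : G) :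
    ∑ k ∈ K, σ k * kap j B a X (g • k) =
      PP.pairing a fun m => chiM j X m *
        (fun k => if k ∈ K then σ k else 0) (g⁻¹ • clsM X m) := by
  rw [pairing_eq_sum a B hB]
  unfold kap
  simp_rw [Finset.mul_sum]
  rw [Finset.sum_comm]
  refine Finset.sum_congr rfl fun m _ => ?_
  have e : ∀ k, (clsM X m = g • k) ↔ (g⁻¹ • clsM X m = k) := fun k => by
    rw [inv_smul_eq_iff]
  simp_rw [e, mul_ite, mul_one, mul_zero]
  rw [Finset.sum_ite_eq]
  split_ifs <;> ring

lemma kap_ne_zero {j : ℕ} {B : Finset MM} {a : PP.Mol} {X : Ctr} {k : Fin 3 → ℤ}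
    (h : kap j B a X k ≠ 0) : ∃ m ∈ B, chiM j X m ≠ 0 ∧ clsM X m = k := by
  obtain ⟨m, hm, hne⟩ := Finset.exists_ne_zero_of_sum_ne_zero h
  refine ⟨m, hm, right_ne_zero_of_mul (left_ne_zero_of_mul hne), ?_⟩
  by_contra h2
  simp [h2] at hne

lemma mass_bound (j : ℕ) (B : Finset MM) (a : PP.Mol) (hB : (PP.coeffs a).support ⊆ B)
    (x : Qt (NN j)) (K : Finset (Fin 3 → ℤ)) (hK : ∀ m ∈ B, clsM (ctr j x) m ∈ K)
    (ha : ‖a - dl PP (pt j (e1, x))‖ ≤ WW j) :
    1 - (20 + WW j) / rho j ≤ ∑ k ∈ K, |kap j B a (ctr j x) k| := by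
  classical
  have e1' : ∑ k ∈ K, kap j B a (ctr j x) k = PP.pairing a (chiM j (ctr j x)) := by
    rw [pairing_eq_sum a B hB]
    unfold kap
    rw [Finset.sum_comm]
    refine Finset.sum_congr rfl fun m hm => ?_
    simp_rw [mul_ite, mul_one, mul_zero]
    rw [Finset.sum_ite_eq, if_pos (hK m hm)]
  have hρ := rho_pos j
  have e2 := abs_pairing_le_mul PP (a - dl PP (pt j (e1, x))) (chiM j (ctr j x)) (rho j)⁻¹
    (inv_pos.mpr hρ) (chiM_lip j _) rfl
  rw [pairing_sub, pairing_dl, chiM_pt, ctr_self, mul_inv_cancel] at e2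
  have e3 := chi_one j
  have e4 : (rho j)⁻¹ * ‖a - dl PP (pt j (e1, x))‖ ≤ WW j / rho j := by
    rw [div_eq_inv_mul]; exact mul_le_mul_of_nonneg_left ha (inv_pos.mpr hρ).le
  have e5 := (abs_le.mp (e2.trans e4)).1
  have e6 : ∑ k ∈ K, kap j B a (ctr j x) k ≤ ∑ k ∈ K, |kap j B a (ctr j x) k| :=
    Finset.sum_le_sum fun k _ => le_abs_self _
  rw [add_div]
  linarith

lemma edge_bound (j : ℕ) (B : Finset MM) (a a' : PP.Mol) (hB : (PP.coeffs a).support ⊆ B)
    (hB' : (PP.coeffs a').support ⊆ B) (x : Qt (NN j)) {g : G} (hg : Sm g)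
    (K : Finset (Fin 3 → ℤ)) (u : (Fin 3 → ℤ) → ℝ) (hu0 : ∀ k, 0 ≤ u k) (hu1 : ∀ k, u k ≤ 1)
    (haa : ‖a - a'‖ ≤ 21 * j + 2)
    (ha' : ‖a' - dl PP (pt j (e1, red (NN j) g * x))‖ ≤ WW j) :
    ∑ k ∈ K, u k * (|kap j B a (ctr j x) k| - |kap j B a' (ctr j (red (NN j) g * x)) (g • k)|) ≤
      (21 * j + 2) / rr j + (40 * WW j + 20) / rho j := by
  classical
  set X := ctr j x with hX
  set X' := ctr j (red (NN j) g * x) with hX'
  set σ : (Fin 3 → ℤ) → ℝ := fun k => if 0 ≤ kap j B a X k then u k else -u k with hσ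
  set σ' : (Fin 3 → ℤ) → ℝ := fun k => if k ∈ K then σ k else 0 with hσ'
  have hσ1 : ∀ k, |σ' k| ≤ 1 := fun k => by
    simp only [hσ', hσ]
    split_ifs
    · rw [abs_of_nonneg (hu0 k)]; exact hu1 k
    · rw [abs_neg, abs_of_nonneg (hu0 k)]; exact hu1 k
    · simp
  have h1 : ∑ k ∈ K, u k * (|kap j B a X k| - |kap j B a' X' (g • k)|) ≤
      ∑ k ∈ K, σ k * kap j B a X ((1 : G) • k) - ∑ k ∈ K, σ k * kap j B a' X' (g • k) := by
    rw [← Finset.sum_sub_distrib]
    refine Finset.sum_le_sum fun k _ => ?_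
    rw [one_smul]
    simp only [hσ]
    split_ifs with h
    · rw [abs_of_nonneg h, ← mul_sub]
      exact mul_le_mul_of_nonneg_left (by linarith [le_abs_self (kap j B a' X' (g • k))]) (hu0 k)
    · rw [abs_of_neg (not_le.mp h), ← mul_sub, neg_mul, ← mul_neg]
      exact mul_le_mul_of_nonneg_left (by linarith [neg_abs_le (kap j B a' X' (g • k))]) (hu0 k)
  rw [sum_kap j B a hB, sum_kap j B a' hB'] at h1
  simp only [inv_one, one_smul] at h1
  change _ ≤ PP.pairing a (fun m => chiM j X m * σ' (clsM X m)) -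
    PP.pairing a' (fun m => chiM j X' m * σ' (g⁻¹ • clsM X' m)) at h1
  set t : MM → ℝ := fun m => chiM j X m * σ' (clsM X m) with ht
  set t' : MM → ℝ := fun m => chiM j X' m * σ' (g⁻¹ • clsM X' m) with ht'
  have hρ := rho_pos j
  have hr := rr_pos j
  have h2 := abs_pairing_le_mul PP (a - a') t (rr j)⁻¹ (inv_pos.mpr hr)
    (sign_lip j X σ' hσ1) (by simp [ht, chiM])
  have hb : ∀ m, |t m - t' m| ≤ 20 / rho j :=
    recentre j hg X X' (by rw [hX, hX', ctr_self, ctr_self]) σ' hσ1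
  have h3 := abs_pairing_le_mul PP (a' - dl PP (pt j (e1, red (NN j) g * x)))
    (fun m => t m - t' m) (40 / rho j) (by positivity) (fun m m' => by
      by_cases h : m = m'
      · subst h; simp
      · have h4 : |t m - t' m - (t m' - t' m')| ≤ 40 / rho j := by
          refine (abs_sub _ _).trans ((add_le_add (hb m) (hb m')).trans (le_of_eq (by ring)))
        exact h4.trans (le_mul_of_one_le_right (by positivity) (one_le_dist h)))
    (by simp [ht, ht', chiM])
  rw [pairing_sub] at h2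
  rw [pairing_sub, pairing_dl, pairing_sub_fun] at h3
  have h5 := (abs_le.mp (hb (pt j (e1, red (NN j) g * x)))).2
  have h6 : (rr j)⁻¹ * ‖a - a'‖ ≤ (21 * j + 2) / rr j := by
    rw [div_eq_inv_mul]; exact mul_le_mul_of_nonneg_left haa (inv_pos.mpr hr).le
  have h7 : 40 / rho j * ‖a' - dl PP (pt j (e1, red (NN j) g * x))‖ ≤ 40 / rho j * WW j :=
    mul_le_mul_of_nonneg_left ha' (by positivity)
  have h8 := (abs_le.mp (h2.trans h6)).2
  have h9 := (abs_le.mp (h3.trans h7)).2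
  have e : (40 * WW j + 20) / rho j = 40 / rho j * WW j + 20 / rho j := by ring
  rw [e]
  linarith

lemma numeric (j : ℕ) :
    4 * ((21 * j + 2) / rr j + (40 * WW j + 20) / rho j) < 2 * (1 - (20 + WW j) / rho j) := by
  have hρ := rho_pos j
  have hr := rr_pos j
  have hW := WW_pos j
  have hj : (0 : ℝ) ≤ j := Nat.cast_nonneg j
  have h1 : (21 * j + 2) / rr j ≤ 1 / 8 := by
    rw [div_le_iff₀ hr]; unfold rr; linarith
  have h2 : (40 * WW j + 20) / rho j ≤ 1 / 8 := by
    rw [div_le_iff₀ hρ]; unfold rho; linarith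
  have h3 : (20 + WW j) / rho j ≤ 1 / 8 := by
    rw [div_le_iff₀ hρ]; unfold rho; linarith
  linarith

theorem not_hasBAP_PP : ¬ HasBAP PP.FreeSpace := by
  classical
  rintro ⟨lam, hlam⟩
  obtain ⟨j, hj⟩ := exists_nat_ge lam
  have hj0 : (0 : ℝ) ≤ j := Nat.cast_nonneg j
  obtain ⟨T, hTf, hTn, hT⟩ := hlam
    (Set.range fun x : Qt (NN j) => (dl PP (pt j (e1, x)) : PP.FreeSpace))
    (Set.finite_range _).isCompact 1 one_pos
  have hTj : ∀ v, ‖T v‖ ≤ j * ‖v‖ := fun v =>
    (T.le_opNorm v).trans (mul_le_mul_of_nonneg_right (hTn.trans hj) (norm_nonneg _))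
  set W := LinearMap.range T.toLinearMap with hW
  have hprop : ProperSpace W := FiniteDimensional.proper_real W
  have hK' : IsCompact (Subtype.val '' Metric.closedBall (0 : W) (j * (1 + rho j))) :=
    (isCompact_closedBall _ _).image continuous_subtype_val
  obtain ⟨𝒜, h𝒜⟩ := exists_net PP _ hK' 1 one_pos
  have hex : ∀ z : Y × Qt (NN j), ∃ a ∈ 𝒜,
      ‖T (dl PP (pt j z) : PP.FreeSpace) - (a : PP.FreeSpace)‖ ≤ 1 := fun z => by
    refine h𝒜 _ ⟨⟨_, ⟨(dl PP (pt j z) : PP.FreeSpace), rfl⟩⟩, ?_, rfl⟩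
    rw [mem_closedBall_zero_iff]
    change ‖T (dl PP (pt j z) : PP.FreeSpace)‖ ≤ _
    refine (hTj _).trans (mul_le_mul_of_nonneg_left ?_ hj0)
    rw [UniformSpace.Completion.norm_coe]
    exact (norm_dl PP _).trans (dist_none_le _)
  choose μ hμ𝒜 hμ using hex
  have hTd : ∀ m m' : MM, ‖T (dl PP m : PP.FreeSpace) - T (dl PP m' : PP.FreeSpace)‖ ≤
      j * dist m m' := fun m m' => by
    rw [← map_sub]
    refine (hTj _).trans (mul_le_mul_of_nonneg_left ?_ hj0)
    rw [← UniformSpace.Completion.coe_sub, UniformSpace.Completion.norm_coe]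
    exact norm_dl_sub PP m m'
  have M1 : ∀ z z', ‖μ z - μ z'‖ ≤ j * dist (pt j z) (pt j z') + 2 := fun z z' => by
    rw [← UniformSpace.Completion.norm_coe, UniformSpace.Completion.coe_sub]
    have h1 := hμ z
    have h2 := hμ z'
    have h3 := hTd (pt j z) (pt j z')
    rw [norm_sub_rev] at h1
    have h4 := norm_sub_le_norm_sub_add_norm_sub (μ z : PP.FreeSpace)
      (T (dl PP (pt j z) : PP.FreeSpace)) (μ z')
    have h5 := norm_sub_le_norm_sub_add_norm_sub (T (dl PP (pt j z) : PP.FreeSpace))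
      (T (dl PP (pt j z') : PP.FreeSpace)) (μ z')
    linarith
  have M2 : ∀ z, ‖μ z - dl PP (pt j (e1, z.2))‖ ≤ WW j := fun z => by
    rw [← UniformSpace.Completion.norm_coe, UniformSpace.Completion.coe_sub]
    have h1 := hμ z
    have h2 := hT _ ⟨z.2, rfl⟩
    have h3 := (hTd (pt j z) (pt j (e1, z.2))).trans
      (mul_le_mul_of_nonneg_left (dist_anchor j z) hj0)
    rw [norm_sub_rev] at h1
    have h4 := norm_sub_le_norm_sub_add_norm_sub (μ z : PP.FreeSpace)
      (T (dl PP (pt j z) : PP.FreeSpace)) (dl PP (pt j (e1, z.2)) : PP.FreeSpace)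
    have h5 := norm_sub_le_norm_sub_add_norm_sub (T (dl PP (pt j z) : PP.FreeSpace))
      (T (dl PP (pt j (e1, z.2)) : PP.FreeSpace)) (dl PP (pt j (e1, z.2)) : PP.FreeSpace)
    unfold WW
    linarith
  set B : Finset MM := 𝒜.biUnion fun a => (PP.coeffs a).support with hBdef
  have hB : ∀ z, (PP.coeffs (μ z)).support ⊆ B := fun z =>
    Finset.subset_biUnion_of_mem (fun a => (PP.coeffs a).support) (hμ𝒜 z)
  set K : Finset (Fin 3 → ℤ) :=
    ((Finset.univ : Finset (Qt (NN j))) ×ˢ B).image fun w => clsM (ctr j w.1) w.2 with hKdef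
  have hK : ∀ x, ∀ m ∈ B, clsM (ctr j x) m ∈ K := fun x m hm =>
    Finset.mem_image.mpr ⟨(x, m), Finset.mem_product.mpr ⟨Finset.mem_univ _, hm⟩, rfl⟩
  obtain ⟨p, hp1, hp⟩ := Nat.exists_infinite_primes (K.sup (fun k => (k 2).natAbs) + 1)
  have hKp : ∀ k ∈ K, |k 2| < p := fun k hk => by
    have h1 : (k 2).natAbs ≤ K.sup (fun k => (k 2).natAbs) :=
      Finset.le_sup (f := fun k : Fin 3 → ℤ => (k 2).natAbs) hk
    rw [Int.abs_eq_natAbs]
    omega
  set Fs : Finset (Y × Qt (NN j)) := ((FF p).subtype fun v => v ≠ 0) ×ˢ Finset.univ with hFs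
  have mem_Fs : ∀ z : Y × Qt (NN j), z ∈ Fs ↔ z.1.1 ∈ FF p := fun z => by
    simp [hFs]
  have key := iso Fs K (fun z k => vec z.1.1 k) (fun s z => mv j (letter p s z.1.1) z)
    (fun s z k => letter p s z.1.1 • k)
    (fun s z hz => (mem_Fs _).mpr (letter_mem s ((mem_Fs _).mp hz)))
    (fun s z hz z' hz' e => by
      have e1 : z.1.1 = z'.1.1 := letter_inj s ((mem_Fs _).mp hz) ((mem_Fs _).mp hz')
        (congrArg (fun w : Y × Qt (NN j) => w.1.1) e)
      have e2 : red (NN j) (letter p s z.1.1) * z.2 = red (NN j) (letter p s z'.1.1) * z'.2 :=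
        congrArg Prod.snd e
      rw [e1] at e2
      exact Prod.ext (Subtype.ext e1) (mul_left_cancel e2))
    (fun s z => MulAction.injective _)
    (fun s z k => vec_letter p s z.1.1 z.1.1 k)
    (fun z k => |kap j B (μ z) (ctr j z.2) k|) (fun _ _ => abs_nonneg _)
    (fun z hz k hk => by
      obtain ⟨m, hm, h1, h2⟩ := kap_ne_zero (abs_ne_zero.mp hk)
      have hkK : k ∈ K := h2 ▸ hK z.2 m hm
      exact ⟨hkK, vec_ne_zero hp ((mem_Fs _).mp hz) (h2 ▸ clsM_ne_zero h1) (hKp k hkK)⟩)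
  have low : ∑ _z ∈ Fs, (1 - (20 + WW j) / rho j) ≤
      ∑ z ∈ Fs, ∑ k ∈ K, |kap j B (μ z) (ctr j z.2) k| :=
    Finset.sum_le_sum fun z _ => mass_bound j B (μ z) (hB z) z.2 K (hK z.2) (M2 z)
  have upp := Finset.sum_le_sum fun s (_ : s ∈ (Finset.univ : Finset (Bool × Bool))) =>
    Finset.sum_le_sum fun z (hz : z ∈ Fs) =>
      edge_bound j B (μ z) (μ (mv j (letter p s z.1.1) z)) (hB _) (hB _) z.2
        (sm_letter s ((mem_Fs _).mp hz)) K (fun k => up s (vec z.1.1 k))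
        (fun _ => up_nonneg _ _) (fun _ => up_le_one _ _)
        ((M1 _ _).trans (by
          have := mul_le_mul_of_nonneg_left
            (dist_edge j (sm_letter s ((mem_Fs _).mp hz)) z) hj0
          linarith))
        (M2 (mv j (letter p s z.1.1) z))
  have hne : 0 < Fs.card := by
    have h2 : 2 ≤ p := hp.two_le
    refine Finset.card_pos.mpr ⟨(⟨![1, 0, p], by simp⟩, 1), (mem_Fs _).mpr ?_⟩
    rw [mem_FF]
    simp
    omega
  have hne' : (0 : ℝ) < Fs.card := by exact_mod_cast hne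
  have fin := key.trans upp
  simp only [Finset.sum_const, Finset.card_univ, Fintype.card_prod, Fintype.card_bool,
    nsmul_eq_mul] at fin low
  have num := mul_lt_mul_of_pos_left (numeric j) hne'
  push_cast at fin
  linarith

end Crest.Agent.R115
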