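import Crest.Prelude.Def_LipschitzFree

/-!
General facts about the free space of a pointed metric space: Dirac molecules, the pairing bound,
operators induced by Lipschitz self-maps, and a criterion for the approximation property.
-/

set_option autoImplicit false

namespace Crest.Agent.R115

open Crest.AnalysisR

variable (P : PointedMetric)

/-- the metric of a pointed metric space, as an instance -/
@[reducible] def met : MetricSpace P.M := P.metric

attribute [local instance] met

/-- Dirac molecule -/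
noncomputable def dl (m : P.M) : P.Mol := (Finsupp.single m (1 : ℝ) : P.M →₀ ℝ)

lemma norm_eq (a : P.Mol) : ‖a‖ = P.freeNorm a := rfl

lemma pairing_sub (a b : P.Mol) (f : P.M → ℝ) :
    P.pairing (a - b) f = P.pairing a f - P.pairing b f := by
  rw [sub_eq_add_neg, P.pairing_add, P.pairing_neg, sub_eq_add_neg]

lemma pairing_dl (m : P.M) (f : P.M → ℝ) : P.pairing (dl P m) f = f m := by
  unfold PointedMetric.pairing PointedMetric.coeffs dl
  rw [Finsupp.sum_single_index (by simp)]
  simp

lemma pairing_mul (a : P.Mol) (c : ℝ) (f : P.M → ℝ) :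
    P.pairing a (fun x => c * f x) = c * P.pairing a f := by
  unfold PointedMetric.pairing
  rw [Finsupp.mul_sum]
  exact Finsupp.sum_congr fun _ _ => by ring

lemma pairing_sub_fun (a : P.Mol) (f g : P.M → ℝ) :
    P.pairing a (fun x => f x - g x) = P.pairing a f - P.pairing a g := by
  unfold PointedMetric.pairing Finsupp.sum
  rw [← Finset.sum_sub_distrib]
  exact Finset.sum_congr rfl fun _ _ => by ring

lemma abs_pairing_le_norm (a : P.Mol) (f : P.M → ℝ)
    (hf : ∀ x y, |f x - f y| ≤ dist x y) (h0 : f P.base = 0) :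
    |P.pairing a f| ≤ ‖a‖ := by
  have hl : LipschitzWith 1 f := by
    refine LipschitzWith.of_dist_le_mul fun x y => ?_
    rw [Real.dist_eq, NNReal.coe_one, one_mul]
    exact hf x y
  exact le_ciSup (P.freeNorm_bddAbove a) (⟨f, hl, h0⟩ : P.Lip1)

lemma abs_pairing_le_mul (a : P.Mol) (f : P.M → ℝ) (L : ℝ) (hL : 0 < L)
    (hf : ∀ x y, |f x - f y| ≤ L * dist x y) (h0 : f P.base = 0) :
    |P.pairing a f| ≤ L * ‖a‖ := by
  have h := abs_pairing_le_norm P a (fun x => L⁻¹ * f x) (fun x y => by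
    rw [← mul_sub, abs_mul, abs_of_pos (inv_pos.mpr hL), inv_mul_le_iff₀ hL]
    exact hf x y) (by simp [h0])
  rw [pairing_mul, abs_mul, abs_of_pos (inv_pos.mpr hL), inv_mul_le_iff₀ hL] at h
  exact h

lemma norm_le_of (a : P.Mol) (C : ℝ)
    (h : ∀ f : P.M → ℝ, (∀ x y, |f x - f y| ≤ dist x y) → f P.base = 0 → |P.pairing a f| ≤ C) :
    ‖a‖ ≤ C := by
  refine ciSup_le fun f => h f.1 (fun x y => ?_) f.2.2
  have := f.2.1.dist_le_mul x y
  rwa [Real.dist_eq, NNReal.coe_one, one_mul] at this

lemma norm_dl_sub (x y : P.M) : ‖dl P x - dl P y‖ ≤ dist x y :=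
  norm_le_of P _ _ fun f hf _ => by
    rw [pairing_sub, pairing_dl, pairing_dl]; exact hf x y

lemma norm_dl (x : P.M) : ‖dl P x‖ ≤ dist x P.base :=
  norm_le_of P _ _ fun f hf h0 => by
    have := hf x P.base
    rwa [h0, sub_zero, ← pairing_dl P x f] at this

/-- push-forward of molecules -/
noncomputable def mapMol (R : P.M → P.M) : P.Mol →ₗ[ℝ] P.Mol :=
  (Finsupp.lmapDomain ℝ ℝ R : (P.M →₀ ℝ) →ₗ[ℝ] (P.M →₀ ℝ))

lemma coeffs_mapMol (R : P.M → P.M) (a : P.Mol) :
    P.coeffs (mapMol P R a) = Finsupp.mapDomain R (P.coeffs a) := rfl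

lemma pairing_mapMol (R : P.M → P.M) (a : P.Mol) (f : P.M → ℝ) :
    P.pairing (mapMol P R a) f = P.pairing a (fun x => f (R x)) := by
  unfold PointedMetric.pairing
  rw [coeffs_mapMol, Finsupp.sum_mapDomain_index (by simp) (fun _ _ _ => by ring)]

lemma norm_mapMol_le (R : P.M → P.M) (L : ℝ) (hL : 0 < L) (h0 : R P.base = P.base)
    (hR : ∀ x y, dist (R x) (R y) ≤ L * dist x y) (a : P.Mol) :
    ‖mapMol P R a‖ ≤ L * ‖a‖ :=
  norm_le_of P _ _ fun f hf hf0 => by
    rw [pairing_mapMol]
    exact abs_pairing_le_mul P a _ L hL (fun x y => (hf _ _).trans (hR x y)) (by simp [h0, hf0])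

/-- the operator on the free space induced by a Lipschitz self-map fixing the base point -/
noncomputable def mapOp (R : P.M → P.M) (L : ℝ) (hL : 0 < L) (h0 : R P.base = P.base)
    (hR : ∀ x y, dist (R x) (R y) ≤ L * dist x y) : P.FreeSpace →L[ℝ] P.FreeSpace :=
  ((mapMol P R).mkContinuous L (norm_mapMol_le P R L hL h0 hR)).completion

lemma mapOp_coe (R : P.M → P.M) (L : ℝ) (hL : 0 < L) (h0 : R P.base = P.base)
    (hR : ∀ x y, dist (R x) (R y) ≤ L * dist x y) (a : P.Mol) :
    mapOp P R L hL h0 hR (a : P.FreeSpace) = (mapMol P R a : P.FreeSpace) := by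
  unfold mapOp
  rw [ContinuousLinearMap.completion_apply_coe]
  rfl

lemma norm_mapOp_le (R : P.M → P.M) (L : ℝ) (hL : 0 < L) (h0 : R P.base = P.base)
    (hR : ∀ x y, dist (R x) (R y) ≤ L * dist x y) : ‖mapOp P R L hL h0 hR‖ ≤ L := by
  refine ContinuousLinearMap.opNorm_le_bound _ hL.le fun x => ?_
  induction x using UniformSpace.Completion.induction_on with
  | hp => exact isClosed_le (by fun_prop) (by fun_prop)
  | ih a =>
    rw [mapOp_coe, UniformSpace.Completion.norm_coe, UniformSpace.Completion.norm_coe]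
    exact norm_mapMol_le P R L hL h0 hR a

lemma finiteDimensional_range_mapOp (R : P.M → P.M) (L : ℝ) (hL : 0 < L) (h0 : R P.base = P.base)
    (hR : ∀ x y, dist (R x) (R y) ≤ L * dist x y) (hfin : (Set.range R).Finite) :
    FiniteDimensional ℝ (LinearMap.range (mapOp P R L hL h0 hR).toLinearMap) := by
  set W : Submodule ℝ P.FreeSpace :=
    Submodule.span ℝ ((fun m => (dl P m : P.FreeSpace)) '' Set.range R) with hW
  have hWf : FiniteDimensional ℝ W := FiniteDimensional.span_of_finite ℝ (hfin.image _)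
  have hcl : IsClosed (W : Set P.FreeSpace) := W.closed_of_finiteDimensional
  have hle : LinearMap.range (mapOp P R L hL h0 hR).toLinearMap ≤ W := by
    rintro _ ⟨x, rfl⟩
    change mapOp P R L hL h0 hR x ∈ (W : Set P.FreeSpace)
    induction x using UniformSpace.Completion.induction_on with
    | hp => exact hcl.preimage (by fun_prop)
    | ih a =>
      rw [mapOp_coe]
      change (UniformSpace.Completion.toComplL (𝕜 := ℝ) (mapMol P R a) : P.FreeSpace) ∈ W
      have key : ∀ b : P.M →₀ ℝ,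
          (UniformSpace.Completion.toComplL (𝕜 := ℝ) (mapMol P R b) : P.FreeSpace) ∈ W := by
        intro b
        induction b using Finsupp.induction_linear with
        | zero =>
          have : (mapMol P R (0 : P.M →₀ ℝ)) = 0 := map_zero (mapMol P R)
          rw [this, map_zero]; exact W.zero_mem
        | add f g hf hg =>
          have : mapMol P R (f + g : P.M →₀ ℝ) = mapMol P R f + mapMol P R g :=
            map_add (mapMol P R) f g
          rw [this, map_add]; exact W.add_mem hf hg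
        | single m c =>
          have : mapMol P R (Finsupp.single m c : P.M →₀ ℝ) = c • dl P (R m) := by
            change Finsupp.mapDomain R (Finsupp.single m c) = c • Finsupp.single (R m) (1 : ℝ)
            simp
          rw [this, map_smul]
          exact W.smul_mem c (Submodule.subset_span ⟨R m, ⟨m, rfl⟩, rfl⟩)
      exact key a
  exact Submodule.finiteDimensional_of_le hle

/-- every compact subset of the free space has a finite net of molecules -/
lemma exists_net (K : Set P.FreeSpace) (hK : IsCompact K) (δ : ℝ) (hδ : 0 < δ) :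
    ∃ 𝒜 : Finset P.Mol, ∀ x ∈ K, ∃ a ∈ 𝒜, ‖x - (a : P.FreeSpace)‖ ≤ δ := by
  have hd : DenseRange ((↑) : P.Mol → P.FreeSpace) := UniformSpace.Completion.denseRange_coe
  obtain ⟨t, ht⟩ := hK.elim_finite_subcover (fun a : P.Mol => Metric.ball (a : P.FreeSpace) δ)
    (fun _ => Metric.isOpen_ball) (fun x _ => by
      obtain ⟨a, ha⟩ := hd.exists_dist_lt x hδ
      exact Set.mem_iUnion.mpr ⟨a, ha⟩)
  refine ⟨t, fun x hx => ?_⟩
  obtain ⟨a, ha, hxa⟩ := Set.mem_iUnion₂.mp (ht hx)
  exact ⟨a, ha, by rw [← dist_eq_norm]; exact (Metric.mem_ball.mp hxa).le⟩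

lemma approx_of_agree (K : Set P.FreeSpace) (hK : IsCompact K) (ε : ℝ) (hε : 0 < ε)
    (S : P.FreeSpace →L[ℝ] P.FreeSpace) (L : ℝ) (hL : 0 < L)
    (Pr : (P.FreeSpace →L[ℝ] P.FreeSpace) → Prop)
    (h : ∀ 𝒜 : Finset P.Mol, ∃ T, Pr T ∧ ‖T‖ ≤ L ∧ ∀ a ∈ 𝒜, T (a : P.FreeSpace) = S a) :
    ∃ T, Pr T ∧ ∀ x ∈ K, ‖T x - S x‖ ≤ ε := by
  have hpos : 0 < L + ‖S‖ := by positivity
  obtain ⟨𝒜, h𝒜⟩ := exists_net P K hK (ε / (L + ‖S‖)) (by positivity)
  obtain ⟨T, hT, hTL, hTS⟩ := h 𝒜
  refine ⟨T, hT, fun x hx => ?_⟩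
  obtain ⟨a, ha, hxa⟩ := h𝒜 x hx
  have e : T x - S x = T (x - a) - S (x - a) := by
    rw [map_sub, map_sub, hTS a ha]; abel
  rw [e]
  calc ‖T (x - a) - S (x - a)‖ ≤ ‖T (x - a)‖ + ‖S (x - a)‖ := norm_sub_le _ _
    _ ≤ L * ‖x - a‖ + ‖S‖ * ‖x - a‖ :=
        add_le_add ((T.le_opNorm _).trans (mul_le_mul_of_nonneg_right hTL (norm_nonneg _)))
          (S.le_opNorm _)
    _ = (L + ‖S‖) * ‖x - a‖ := by ring
    _ ≤ (L + ‖S‖) * (ε / (L + ‖S‖)) := mul_le_mul_of_nonneg_left hxa hpos.le
    _ = ε := by field_simp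

open Classical in
/-- retraction onto a set, sending the rest to the base point -/
noncomputable def retr (S : Set P.M) (m : P.M) : P.M := if m ∈ S then m else P.base

lemma retr_base (S : Set P.M) : retr P S P.base = P.base := by
  unfold retr; split_ifs <;> rfl

lemma retr_lip (S : Set P.M) (L : ℝ) (hL : 1 ≤ L)
    (h : ∀ x ∈ S, ∀ y, y ∉ S → dist x P.base ≤ L * dist x y) (x y : P.M) :
    dist (retr P S x) (retr P S y) ≤ L * dist x y := by
  unfold retr
  split_ifs with hx hy hy
  · exact le_mul_of_one_le_left dist_nonneg hL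
  · exact h x hx y hy
  · rw [dist_comm, dist_comm x y]; exact h y hy x hx
  · rw [dist_self]; positivity

lemma mapMol_congr (R R' : P.M → P.M) (a : P.Mol)
    (h : ∀ m ∈ (P.coeffs a).support, R m = R' m) : mapMol P R a = mapMol P R' a :=
  Finsupp.mapDomain_congr h

lemma mapMol_id (a : P.Mol) : mapMol P id a = a := Finsupp.mapDomain_id

theorem hasAP_of_levels (lev : P.M → ℕ) (D : ℕ → ℝ)
    (h1 : ∀ m m', lev m < lev m' → dist m P.base ≤ dist m m')
    (h2 : ∀ m, dist m P.base ≤ D (lev m))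
    (h3 : ∀ m m' : P.M, m ≠ m' → 1 ≤ dist m m') : HasAP P.FreeSpace := by
  classical
  intro K hK ε hε
  have hlip : ∀ j : ℕ, ∀ x y, dist (retr P {m | lev m ≤ j} x) (retr P {m | lev m ≤ j} y) ≤
      1 * dist x y := fun j => retr_lip P _ 1 le_rfl fun x hx y hy => by
    rw [one_mul]
    exact h1 x y (lt_of_le_of_lt hx (not_le.mp hy))
  obtain ⟨S, ⟨j, rfl⟩, hS⟩ := approx_of_agree P K hK (ε / 2) (by positivity)
    (ContinuousLinearMap.id ℝ _) 1 one_pos
    (fun T => ∃ j : ℕ, T = mapOp P _ 1 one_pos (retr_base P _) (hlip j)) (fun 𝒜 => by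
      refine ⟨_, ⟨𝒜.sup fun a => (P.coeffs a).support.sup lev, rfl⟩,
        norm_mapOp_le P _ _ _ _ _, fun a ha => ?_⟩
      rw [mapOp_coe, mapMol_congr P _ id a, mapMol_id]
      · rfl
      · intro m hm
        have : lev m ≤ 𝒜.sup fun a => (P.coeffs a).support.sup lev :=
          (Finset.le_sup (f := lev) hm).trans
            (Finset.le_sup (f := fun a => (P.coeffs a).support.sup lev) ha)
        simp [retr, this])
  set L : ℝ := 1 + ∑ i ∈ Finset.range (j + 1), |D i| with hLdef
  have hL1 : 1 ≤ L := le_add_of_nonneg_right (Finset.sum_nonneg fun _ _ => abs_nonneg _)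
  have hL : 0 < L := lt_of_lt_of_le one_pos hL1
  have hD : ∀ m, lev m ≤ j → dist m P.base ≤ L := fun m hm => by
    have : |D (lev m)| ≤ ∑ i ∈ Finset.range (j + 1), |D i| :=
      Finset.single_le_sum (f := fun i => |D i|) (fun _ _ => abs_nonneg _)
        (Finset.mem_range.mpr (Nat.lt_succ_of_le hm))
    have h4 := h2 m
    have h5 := le_abs_self (D (lev m))
    linarith
  obtain ⟨T, hT, hTS⟩ := approx_of_agree P K hK (ε / 2) (by positivity)
    (mapOp P _ 1 one_pos (retr_base P _) (hlip j)) L hL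
    (fun T => FiniteDimensional ℝ (LinearMap.range T.toLinearMap)) (fun 𝒜 => by
      set B : Finset P.M := (𝒜.biUnion fun a => (P.coeffs a).support).filter fun m => lev m ≤ j
        with hB
      have hlipB : ∀ x y, dist (retr P (B : Set P.M) x) (retr P (B : Set P.M) y) ≤ L * dist x y :=
        retr_lip P _ L hL1 fun x hx y hy => by
          have hxy : x ≠ y := fun e => hy (e ▸ hx)
          have hx' : lev x ≤ j := (Finset.mem_filter.mp hx).2
          exact (hD x hx').trans (le_mul_of_one_le_right hL.le (h3 x y hxy))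
      refine ⟨mapOp P _ L hL (retr_base P _) hlipB, ?_, norm_mapOp_le P _ _ _ _ _, fun a ha => ?_⟩
      · refine finiteDimensional_range_mapOp P _ _ _ _ _ ?_
        refine ((B.finite_toSet).insert P.base).subset ?_
        rintro _ ⟨m, rfl⟩
        unfold retr
        split_ifs with hm
        · exact Set.mem_insert_of_mem _ hm
        · exact Set.mem_insert _ _
      · rw [mapOp_coe, mapOp_coe, mapMol_congr P _ _ a]
        intro m hm
        have : m ∈ (B : Set P.M) ↔ m ∈ {m | lev m ≤ j} := by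
          simp only [hB, Finset.coe_filter, Finset.mem_biUnion, Set.mem_ofPred_eq]
          exact ⟨fun h => h.2, fun h => ⟨⟨a, ha, hm⟩, h⟩⟩
        unfold retr
        by_cases hm' : m ∈ (B : Set P.M)
        · rw [if_pos hm', if_pos (this.mp hm')]
        · rw [if_neg hm', if_neg (fun h => hm' (this.mpr h))])
  refine ⟨T, hT, fun x hx => ?_⟩
  have e1 := hS x hx
  have e2 := hTS x hx
  rw [ContinuousLinearMap.id_apply] at e1
  calc ‖T x - x‖ ≤ ‖T x - mapOp P _ 1 one_pos (retr_base P _) (hlip j) x‖ +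
        ‖mapOp P _ 1 one_pos (retr_base P _) (hlip j) x - x‖ := norm_sub_le_norm_sub_add_norm_sub _ _ _
    _ ≤ ε / 2 + ε / 2 := add_le_add e2 e1
    _ = ε := by ring

end Crest.Agent.R115
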