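import Mathlib

/-!
Integral matrices: sizes, small lifts from a congruence quotient, row operations, and the
expansion inequality for the four Sanov matrices acting on nonzero integer vectors.
-/

set_option autoImplicit false

namespace Crest.Agent.R115

/-- the group `SL(3, ℤ)` -/
abbrev G : Type := Matrix.SpecialLinearGroup (Fin 3) ℤ

/-- the congruence quotient -/
abbrev Qt (N : ℕ) : Type := Matrix.SpecialLinearGroup (Fin 3) (ZMod N)

/-- reduction modulo `N` -/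
def red (N : ℕ) : G →* Qt N := Matrix.SpecialLinearGroup.map (Int.castRingHom (ZMod N))

/-- sum of the absolute values of the entries -/
def sz (w : G) : ℤ := ∑ i, ∑ j, |w.1 i j|

lemma abs_entry_le_sz (w : G) (i j : Fin 3) : |w.1 i j| ≤ sz w :=
  (Finset.single_le_sum (f := fun j => |w.1 i j|) (fun _ _ => abs_nonneg _)
    (Finset.mem_univ j)).trans
    (Finset.single_le_sum (f := fun i => ∑ j, |w.1 i j|)
      (fun _ _ => Finset.sum_nonneg fun _ _ => abs_nonneg _) (Finset.mem_univ i))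

lemma one_le_sz (w : G) : 1 ≤ sz w := by
  by_contra h
  have h0 : w.1 = 0 := by
    ext i j
    have := abs_entry_le_sz w i j
    have h2 : |w.1 i j| = 0 := by have := abs_nonneg (w.1 i j); omega
    simpa using h2
  have := w.2
  rw [h0] at this
  simp at this

lemma sz_mul (a b : G) : sz (a * b) ≤ sz a * sz b := by
  unfold sz
  have h : ∀ i j, |(a * b).1 i j| ≤ ∑ k, |a.1 i k| * |b.1 k j| := fun i j => by
    rw [Matrix.SpecialLinearGroup.coe_mul, Matrix.mul_apply]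
    exact (Finset.abs_sum_le_sum_abs _ _).trans (le_of_eq (by simp [abs_mul]))
  calc ∑ i, ∑ j, |(a * b).1 i j| ≤ ∑ i, ∑ j, ∑ k, |a.1 i k| * |b.1 k j| :=
        Finset.sum_le_sum fun i _ => Finset.sum_le_sum fun j _ => h i j
    _ = ∑ i, ∑ k, |a.1 i k| * ∑ j, |b.1 k j| := by
        refine Finset.sum_congr rfl fun i _ => ?_
        rw [Finset.sum_comm]
        exact Finset.sum_congr rfl fun k _ => by rw [Finset.mul_sum]
    _ ≤ ∑ i, ∑ k, |a.1 i k| * ∑ l, ∑ j, |b.1 l j| := by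
        refine Finset.sum_le_sum fun i _ => Finset.sum_le_sum fun k _ => ?_
        exact mul_le_mul_of_nonneg_left
          (Finset.single_le_sum (f := fun l => ∑ j, |b.1 l j|)
            (fun _ _ => Finset.sum_nonneg fun _ _ => abs_nonneg _) (Finset.mem_univ k))
          (abs_nonneg _)
    _ = (∑ i, ∑ j, |a.1 i j|) * ∑ i, ∑ j, |b.1 i j| := by
        rw [Finset.sum_mul]
        exact Finset.sum_congr rfl fun i _ => by rw [Finset.sum_mul]

/-- logarithmic size -/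
noncomputable def ell (w : G) : ℝ := Real.log (sz w : ℝ)

lemma one_le_sz' (w : G) : (1 : ℝ) ≤ (sz w : ℝ) := by exact_mod_cast one_le_sz w

lemma ell_nonneg (w : G) : 0 ≤ ell w := Real.log_nonneg (one_le_sz' w)

lemma ell_mul (a b : G) : ell (a * b) ≤ ell a + ell b := by
  unfold ell
  have ha := one_le_sz' a
  have hb := one_le_sz' b
  have hab := one_le_sz' (a * b)
  rw [← Real.log_mul (by linarith) (by linarith)]
  exact Real.log_le_log (by linarith) (by exact_mod_cast sz_mul a b)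

lemma ell_le (w : G) (h : sz w ≤ 20) : ell w ≤ 20 := by
  have h1 := one_le_sz' w
  have h2 : (sz w : ℝ) ≤ 20 := by exact_mod_cast h
  have := Real.log_le_sub_one_of_pos (lt_of_lt_of_le one_pos h1)
  unfold ell; linarith

lemma ell_one : ell 1 ≤ 20 := ell_le _ (by simp [sz, Fin.sum_univ_three, Matrix.one_apply])

/-- small letters -/
def Sm (g : G) : Prop := ell g ≤ 20 ∧ ell g⁻¹ ≤ 20

lemma Sm.left {g : G} (h : Sm g) (w : G) : |ell (g * w * 1) - ell w| ≤ 20 := by
  have h1 := ell_mul g w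
  have h2 := ell_mul g⁻¹ (g * w)
  rw [inv_mul_cancel_left] at h2
  rw [mul_one, abs_le]
  constructor <;> linarith [h.1, h.2]

lemma Sm.right {g : G} (h : Sm g) (w : G) : |ell (1 * w * g⁻¹) - ell w| ≤ 20 := by
  have h1 := ell_mul w g⁻¹
  have h2 := ell_mul (w * g⁻¹) g
  rw [inv_mul_cancel_right] at h2
  rw [one_mul, abs_le]
  constructor <;> linarith [h.1, h.2]

lemma red_inj {ρ : ℝ} {N : ℕ} (hN : 2 * Real.exp (ρ + 20) ≤ N) {w w' : G}
    (hw : ell w < ρ + 20) (hw' : ell w' < ρ + 20) (h : red N w = red N w') : w = w' := by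
  have key : ∀ v : G, ell v < ρ + 20 → (sz v : ℝ) < Real.exp (ρ + 20) := fun v hv => by
    have := one_le_sz' v
    exact (Real.log_lt_iff_lt_exp (by linarith)).mp hv
  ext i j
  have e : ((w.1 i j : ℤ) : ZMod N) = ((w'.1 i j : ℤ) : ZMod N) := by
    have := congrArg (fun x : Qt N => x.1 i j) h
    simpa [red] using this
  rw [ZMod.intCast_eq_intCast_iff_dvd_sub] at e
  have h1 : ((|w.1 i j| : ℤ) : ℝ) ≤ sz w := by exact_mod_cast abs_entry_le_sz w i j
  have h2 : ((|w'.1 i j| : ℤ) : ℝ) ≤ sz w' := by exact_mod_cast abs_entry_le_sz w' i j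
  have h3 : ((|w.1 i j| + |w'.1 i j| : ℤ) : ℝ) < (N : ℤ) := by
    have := key w hw
    have := key w' hw'
    push_cast at h1 h2 ⊢
    linarith
  have h4 : |w.1 i j| + |w'.1 i j| < (N : ℤ) := by exact_mod_cast h3
  have h5 : |w'.1 i j - w.1 i j| < (N : ℤ) := by
    have := abs_sub (w'.1 i j) (w.1 i j)
    linarith
  have := Int.eq_zero_of_abs_lt_dvd e h5
  change w.1 i j = w'.1 i j
  omega

open Classical in
/-- the small lift of a residue class, if there is one -/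
noncomputable def lift (ρ : ℝ) (N : ℕ) (q : Qt N) : G :=
  if h : ∃ w, ell w < ρ + 20 ∧ red N w = q then h.choose else 1

open Classical in
/-- the cut-off function on the quotient -/
noncomputable def chi (ρ : ℝ) (N : ℕ) (q : Qt N) : ℝ :=
  if ∃ w, ell w < ρ + 20 ∧ red N w = q then max 0 (1 - ell (lift ρ N q) / ρ) else 0

lemma chi_nonneg (ρ : ℝ) (N : ℕ) (q : Qt N) : 0 ≤ chi ρ N q := by
  unfold chi; split_ifs
  · exact le_max_left _ _
  · exact le_rfl

lemma chi_le_one {ρ : ℝ} (hρ : 0 < ρ) (N : ℕ) (q : Qt N) : chi ρ N q ≤ 1 := by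
  unfold chi; split_ifs
  · refine max_le zero_le_one ?_
    have := div_nonneg (ell_nonneg (lift ρ N q)) hρ.le
    linarith
  · exact zero_le_one

lemma lift_eq {ρ : ℝ} {N : ℕ} (hN : 2 * Real.exp (ρ + 20) ≤ N) {w : G} {q : Qt N}
    (hw : ell w < ρ + 20) (hq : red N w = q) :
    lift ρ N q = w ∧ chi ρ N q = max 0 (1 - ell w / ρ) := by
  have h : ∃ w, ell w < ρ + 20 ∧ red N w = q := ⟨w, hw, hq⟩
  have e : lift ρ N q = w := by
    unfold lift
    rw [dif_pos h]
    exact red_inj hN h.choose_spec.1 hw (h.choose_spec.2.trans hq.symm)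
  refine ⟨e, ?_⟩
  unfold chi
  rw [if_pos h, e]

lemma of_chi_ne {ρ : ℝ} (hρ : 0 < ρ) {N : ℕ} {q : Qt N} (h : chi ρ N q ≠ 0) :
    ell (lift ρ N q) < ρ ∧ red N (lift ρ N q) = q := by
  unfold chi at h
  split_ifs at h with h1
  · constructor
    · by_contra h2
      apply h
      refine max_eq_left ?_
      have : 1 ≤ ell (lift ρ N q) / ρ := by rw [le_div_iff₀ hρ]; linarith
      linarith
    · unfold lift
      rw [dif_pos h1]
      exact h1.choose_spec.2
  · exact absurd rfl h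

lemma shift_aux {ρ : ℝ} (hρ : 0 < ρ) {N : ℕ} (hN : 2 * Real.exp (ρ + 20) ≤ N) (a b : G)
    (hab : ∀ w, |ell (a * w * b) - ell w| ≤ 20) (q : Qt N) (h : chi ρ N q ≠ 0) :
    lift ρ N (red N a * q * red N b) = a * lift ρ N q * b ∧
      |chi ρ N (red N a * q * red N b) - chi ρ N q| ≤ 20 / ρ := by
  obtain ⟨h1, h2⟩ := of_chi_ne hρ h
  have h3 := abs_le.mp (hab (lift ρ N q))
  obtain ⟨e1, e2⟩ := lift_eq hN (w := a * lift ρ N q * b) (q := red N a * q * red N b)
    (by linarith [h3.2]) (by rw [map_mul, map_mul, h2])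
  obtain ⟨-, e3⟩ := lift_eq hN (w := lift ρ N q) (q := q) (by linarith) h2
  refine ⟨e1, ?_⟩
  rw [e2, e3]
  refine (abs_max_sub_max_le_max _ _ _ _).trans (max_le (by simp; positivity) ?_)
  have : 1 - ell (a * lift ρ N q * b) / ρ - (1 - ell (lift ρ N q) / ρ) =
      -(ell (a * lift ρ N q * b) - ell (lift ρ N q)) / ρ := by ring
  rw [this, abs_div, abs_neg, abs_of_pos hρ]
  exact div_le_div_of_nonneg_right (hab _) hρ.le

lemma shift {ρ : ℝ} (hρ : 0 < ρ) {N : ℕ} (hN : 2 * Real.exp (ρ + 20) ≤ N) (a b : G)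
    (hab : ∀ w, |ell (a * w * b) - ell w| ≤ 20) (q q' : Qt N)
    (hq : q' = red N a * q * red N b) :
    |chi ρ N q' - chi ρ N q| ≤ 20 / ρ ∧
      ((chi ρ N q ≠ 0 ∨ chi ρ N q' ≠ 0) → lift ρ N q' = a * lift ρ N q * b) := by
  have hab' : ∀ w, |ell (a⁻¹ * w * b⁻¹) - ell w| ≤ 20 := fun w => by
    have := hab (a⁻¹ * w * b⁻¹)
    rw [show a * (a⁻¹ * w * b⁻¹) * b = w by group, abs_sub_comm] at this
    exact this
  have hq' : q = red N a⁻¹ * q' * red N b⁻¹ := by
    rw [hq, map_inv, map_inv]; group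
  by_cases h : chi ρ N q ≠ 0
  · obtain ⟨e1, e2⟩ := shift_aux hρ hN a b hab q h
    rw [← hq] at e1 e2
    exact ⟨e2, fun _ => e1⟩
  · by_cases h' : chi ρ N q' ≠ 0
    · obtain ⟨e1, e2⟩ := shift_aux hρ hN a⁻¹ b⁻¹ hab' q' h'
      rw [← hq'] at e1 e2
      refine ⟨by rwa [abs_sub_comm], fun _ => ?_⟩
      rw [e1]; group
    · push Not at h h'
      refine ⟨by rw [h, h']; simp; positivity, fun hh => ?_⟩
      rcases hh with hh | hh
      · exact absurd h hh
      · exact absurd h' hh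

/-! ### Row operations -/

/-- row operation on the first row -/
def rowA (α β : ℤ) : G := ⟨!![1, α, β; 0, 1, 0; 0, 0, 1], by simp [Matrix.det_fin_three]⟩

/-- row operation on the second row -/
def rowB (α β : ℤ) : G := ⟨!![1, 0, 0; α, 1, β; 0, 0, 1], by simp [Matrix.det_fin_three]⟩

lemma rowA_val (α β : ℤ) : (rowA α β).1 = !![1, α, β; 0, 1, 0; 0, 0, 1] := rfl

lemma rowB_val (α β : ℤ) : (rowB α β).1 = !![1, 0, 0; α, 1, β; 0, 0, 1] := rfl

lemma rowA_inv (α β : ℤ) : (rowA α β)⁻¹ = rowA (-α) (-β) := by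
  refine inv_eq_of_mul_eq_one_right ?_
  ext i j
  rw [Matrix.SpecialLinearGroup.coe_mul, rowA_val, rowA_val]
  fin_cases i <;> fin_cases j <;> simp [Matrix.mul_apply, Fin.sum_univ_three]

lemma rowB_inv (α β : ℤ) : (rowB α β)⁻¹ = rowB (-α) (-β) := by
  refine inv_eq_of_mul_eq_one_right ?_
  ext i j
  rw [Matrix.SpecialLinearGroup.coe_mul, rowB_val, rowB_val]
  fin_cases i <;> fin_cases j <;> simp [Matrix.mul_apply, Fin.sum_univ_three]

lemma sz_rowA (α β : ℤ) : sz (rowA α β) = 3 + |α| + |β| := by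
  simp [sz, rowA, Fin.sum_univ_three]; ring

lemma sz_rowB (α β : ℤ) : sz (rowB α β) = 3 + |α| + |β| := by
  simp [sz, rowB, Fin.sum_univ_three]; ring

lemma sm_rowA {α β : ℤ} (h : |α| + |β| ≤ 17) : Sm (rowA α β) :=
  ⟨ell_le _ (by rw [sz_rowA]; linarith),
    ell_le _ (by rw [rowA_inv, sz_rowA, abs_neg, abs_neg]; linarith)⟩

lemma sm_rowB {α β : ℤ} (h : |α| + |β| ≤ 17) : Sm (rowB α β) :=
  ⟨ell_le _ (by rw [sz_rowB]; linarith),
    ell_le _ (by rw [rowB_inv, sz_rowB, abs_neg, abs_neg]; linarith)⟩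

lemma rowA_smul (α β : ℤ) (v : Fin 3 → ℤ) :
    (rowA α β • v) 0 = v 0 + α * v 1 + β * v 2 ∧ (rowA α β • v) 1 = v 1 ∧
      (rowA α β • v) 2 = v 2 := by
  rw [Matrix.SpecialLinearGroup.smul_def, rowA_val]
  simp [Matrix.mulVec, dotProduct, Fin.sum_univ_three]

lemma rowB_smul (α β : ℤ) (v : Fin 3 → ℤ) :
    (rowB α β • v) 0 = v 0 ∧ (rowB α β • v) 1 = α * v 0 + v 1 + β * v 2 ∧
      (rowB α β • v) 2 = v 2 := by
  rw [Matrix.SpecialLinearGroup.smul_def, rowB_val]
  simp [Matrix.mulVec, dotProduct, Fin.sum_univ_three]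

/-- the multiplier of a direction -/
def al (b : Bool) : ℤ := if b then 2 else -2

/-- the affine letter attached to a direction and a point of the finite set -/
def letter (n : ℤ) (s : Bool × Bool) (y : Fin 3 → ℤ) : G :=
  if s.1 then rowA (al s.2) (-((y 0 + al s.2 * y 1) / n))
  else rowB (al s.2) (-((al s.2 * y 0 + y 1) / n))

/-- the finite set of nonzero residues at height `n` -/
noncomputable def FF (n : ℤ) : Finset (Fin 3 → ℤ) :=
  (Fintype.piFinset fun _ => Finset.Icc 0 n).filter fun y =>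
    y 2 = n ∧ y 0 < n ∧ y 1 < n ∧ ¬ (y 0 = 0 ∧ y 1 = 0)

lemma mem_FF {n : ℤ} {y : Fin 3 → ℤ} : y ∈ FF n ↔
    y 2 = n ∧ 0 ≤ y 0 ∧ y 0 < n ∧ 0 ≤ y 1 ∧ y 1 < n ∧ ¬ (y 0 = 0 ∧ y 1 = 0) := by
  simp only [FF, Finset.mem_filter, Fintype.mem_piFinset, Finset.mem_Icc, Fin.forall_fin_succ]
  simp
  omega

lemma al_cases (b : Bool) : al b = 2 ∨ al b = -2 := by cases b <;> simp [al]

lemma abs_div_le {n x : ℤ} (hn : 0 < n) (h1 : -(3 * n) ≤ x) (h2 : x ≤ 3 * n) : |-(x / n)| ≤ 3 := by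
  have e1 : x / n ≤ 3 := by
    have := Int.ediv_le_ediv hn h2
    rwa [Int.mul_ediv_cancel _ hn.ne'] at this
  have e2 : -3 ≤ x / n := by
    have := Int.ediv_le_ediv hn h1
    rwa [show -(3 * n) = -3 * n by ring, Int.mul_ediv_cancel _ hn.ne'] at this
  rw [abs_le]; constructor <;> linarith

lemma sm_letter {n : ℤ} (s : Bool × Bool) {y : Fin 3 → ℤ} (hy : y ∈ FF n) : Sm (letter n s y) := by
  obtain ⟨-, h0, h0', h1, h1', -⟩ := mem_FF.mp hy
  have hn : 0 < n := by omega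
  have ha : |al s.2| = 2 := by rcases al_cases s.2 with h | h <;> simp [h]
  unfold letter
  split_ifs
  · refine sm_rowA ?_
    have := abs_div_le (x := y 0 + al s.2 * y 1) hn
      (by rcases al_cases s.2 with h | h <;> rw [h] <;> omega)
      (by rcases al_cases s.2 with h | h <;> rw [h] <;> omega)
    linarith
  · refine sm_rowB ?_
    have := abs_div_le (x := al s.2 * y 0 + y 1) hn
      (by rcases al_cases s.2 with h | h <;> rw [h] <;> omega)
      (by rcases al_cases s.2 with h | h <;> rw [h] <;> omega)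
    linarith

lemma letter_smul {n : ℤ} (s : Bool × Bool) {y : Fin 3 → ℤ} (hy : y 2 = n) :
    (letter n s y • y) 0 = (if s.1 then (y 0 + al s.2 * y 1) % n else y 0) ∧
    (letter n s y • y) 1 = (if s.1 then y 1 else (al s.2 * y 0 + y 1) % n) ∧
    (letter n s y • y) 2 = n := by
  unfold letter
  split_ifs
  · obtain ⟨e0, e1, e2⟩ := rowA_smul (al s.2) (-((y 0 + al s.2 * y 1) / n)) y
    refine ⟨?_, e1, e2.trans hy⟩
    rw [e0, hy, Int.emod_def]; ring
  · obtain ⟨e0, e1, e2⟩ := rowB_smul (al s.2) (-((al s.2 * y 0 + y 1) / n)) y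
    refine ⟨e0, ?_, e2.trans hy⟩
    rw [e1, hy, Int.emod_def]; ring

lemma letter_mem {n : ℤ} (s : Bool × Bool) {y : Fin 3 → ℤ} (hy : y ∈ FF n) :
    letter n s y • y ∈ FF n := by
  obtain ⟨h2, h0, h0', h1, h1', hne⟩ := mem_FF.mp hy
  have hn : 0 < n := by omega
  obtain ⟨e0, e1, e2⟩ := letter_smul s h2
  rw [mem_FF, e0, e1, e2]
  split_ifs
  · refine ⟨rfl, Int.emod_nonneg _ hn.ne', Int.emod_lt_of_pos _ hn, h1, h1', ?_⟩
    rintro ⟨a, b⟩
    rw [b, mul_zero, add_zero, Int.emod_eq_of_lt h0 h0'] at a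
    exact hne ⟨a, b⟩
  · refine ⟨rfl, h0, h0', Int.emod_nonneg _ hn.ne', Int.emod_lt_of_pos _ hn, ?_⟩
    rintro ⟨a, b⟩
    rw [a, mul_zero, zero_add, Int.emod_eq_of_lt h1 h1'] at b
    exact hne ⟨a, b⟩

lemma letter_inj {n : ℤ} (s : Bool × Bool) {y y' : Fin 3 → ℤ} (hy : y ∈ FF n) (hy' : y' ∈ FF n)
    (h : letter n s y • y = letter n s y' • y') : y = y' := by
  obtain ⟨h2, h0, h0', h1, h1', -⟩ := mem_FF.mp hy
  obtain ⟨g2, g0, g0', g1, g1', -⟩ := mem_FF.mp hy'
  obtain ⟨e0, e1, -⟩ := letter_smul s h2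
  obtain ⟨f0, f1, -⟩ := letter_smul s g2
  rw [h, f0] at e0
  rw [h, f1] at e1
  have key : y 0 = y' 0 ∧ y 1 = y' 1 := by
    split_ifs at e0 e1
    · rw [e1] at e0
      have := (Int.emod_add_cancel_right (al s.2 * y 1)).mp e0
      rw [Int.emod_eq_of_lt h0 h0', Int.emod_eq_of_lt g0 g0'] at this
      exact ⟨this.symm, e1.symm⟩
    · rw [e0] at e1
      have := Int.emod_add_cancel_left.mp e1
      rw [Int.emod_eq_of_lt h1 h1', Int.emod_eq_of_lt g1 g1'] at this
      exact ⟨e0.symm, this.symm⟩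
  ext i
  fin_cases i
  · exact key.1
  · exact key.2
  · exact h2.trans g2.symm

/-- the planar difference vector of two points -/
def vec (y k : Fin 3 → ℤ) : ℤ × ℤ := (k 2 * y 0 - y 2 * k 0, k 2 * y 1 - y 2 * k 1)

/-- the Sanov matrices -/
def lin (s : Bool × Bool) (u : ℤ × ℤ) : ℤ × ℤ :=
  if s.1 then (u.1 + al s.2 * u.2, u.2) else (u.1, al s.2 * u.1 + u.2)

lemma vec_letter (n : ℤ) (s : Bool × Bool) (z y k : Fin 3 → ℤ) :
    vec (letter n s z • y) (letter n s z • k) = lin s (vec y k) := by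
  unfold letter lin vec
  split_ifs
  · obtain ⟨e0, e1, e2⟩ := rowA_smul (al s.2) (-((z 0 + al s.2 * z 1) / n)) y
    obtain ⟨f0, f1, f2⟩ := rowA_smul (al s.2) (-((z 0 + al s.2 * z 1) / n)) k
    rw [e0, e1, e2, f0, f1, f2]
    ext
    · simp only; ring
    · rfl
  · obtain ⟨e0, e1, e2⟩ := rowB_smul (al s.2) (-((al s.2 * z 0 + z 1) / n)) y
    obtain ⟨f0, f1, f2⟩ := rowB_smul (al s.2) (-((al s.2 * z 0 + z 1) / n)) k
    rw [e0, e1, e2, f0, f1, f2]
    ext
    · rfl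
    · simp only; ring

/-- squared norm -/
def nsq (u : ℤ × ℤ) : ℤ := u.1 ^ 2 + u.2 ^ 2

/-- indicator that the direction `s` increases the norm -/
def up (s : Bool × Bool) (u : ℤ × ℤ) : ℝ := if nsq u < nsq (lin s u) then 1 else 0

/-- indicator that the inverse of the direction `s` decreases the norm -/
def dn (s : Bool × Bool) (u : ℤ × ℤ) : ℝ := if nsq (lin (s.1, !s.2) u) < nsq u then 1 else 0

lemma up_nonneg (s : Bool × Bool) (u : ℤ × ℤ) : 0 ≤ up s u := by
  unfold up; split_ifs <;> norm_num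

lemma up_le_one (s : Bool × Bool) (u : ℤ × ℤ) : up s u ≤ 1 := by
  unfold up; split_ifs <;> norm_num

lemma dn_nonneg (s : Bool × Bool) (u : ℤ × ℤ) : 0 ≤ dn s u := by
  unfold dn; split_ifs <;> norm_num

lemma dn_lin (s : Bool × Bool) (u : ℤ × ℤ) : dn s (lin s u) = up s u := by
  have : lin (s.1, !s.2) (lin s u) = u := by
    obtain ⟨a, b⟩ := s
    cases a <;> cases b <;> simp [lin, al]
  unfold dn up
  rw [this]

lemma ponzi (u : ℤ × ℤ) (hu : u ≠ 0) : 2 + ∑ s, dn s u ≤ ∑ s, up s u := by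
  obtain ⟨a, b⟩ := u
  have hab : 0 < a ^ 2 + b ^ 2 := by
    by_contra h
    apply hu
    have ha : a = 0 := by nlinarith [sq_nonneg a, sq_nonneg b]
    have hb : b = 0 := by nlinarith [sq_nonneg a, sq_nonneg b]
    simp [ha, hb]
  simp only [Fintype.sum_prod_type, Fintype.sum_bool, up, dn, lin, al, nsq, Bool.not_true,
    Bool.not_false, if_true, Bool.false_eq_true, if_false]
  have e1 : (a + 2 * b) ^ 2 = a ^ 2 + 4 * (a * b) + 4 * b ^ 2 := by ring
  have e2 : (a + -2 * b) ^ 2 = a ^ 2 - 4 * (a * b) + 4 * b ^ 2 := by ring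
  have e3 : (2 * a + b) ^ 2 = 4 * a ^ 2 + 4 * (a * b) + b ^ 2 := by ring
  have e4 : (-2 * a + b) ^ 2 = 4 * a ^ 2 - 4 * (a * b) + b ^ 2 := by ring
  have e5 : (a * b) ^ 2 = a ^ 2 * b ^ 2 := by ring
  have p1 := sq_nonneg (a + b)
  have p2 := sq_nonneg (a - b)
  have q1 : (a + b) ^ 2 = a ^ 2 + 2 * (a * b) + b ^ 2 := by ring
  have q2 : (a - b) ^ 2 = a ^ 2 - 2 * (a * b) + b ^ 2 := by ring
  have hA := sq_nonneg a
  have hB := sq_nonneg b
  have zA : a ^ 2 = 0 → a * b = 0 := fun h => by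
    have : a = 0 := by nlinarith
    simp [this]
  have zB : b ^ 2 = 0 → a * b = 0 := fun h => by
    have : b = 0 := by nlinarith
    simp [this]
  rw [e1, e2, e3, e4]
  rw [q1] at p1
  rw [q2] at p2
  generalize a * b = C at *
  generalize a ^ 2 = A at *
  generalize b ^ 2 = B at *
  split_ifs <;> first | (norm_num; done) | (exfalso; omega)

lemma vec_ne_zero {p : ℕ} (hp : p.Prime) {y k : Fin 3 → ℤ} (hy : y ∈ FF p) (hk : k ≠ 0)
    (hk2 : |k 2| < p) : vec y k ≠ 0 := by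
  obtain ⟨h2, h0, h0', h1, h1', hne⟩ := mem_FF.mp hy
  intro h
  have e0 : k 2 * y 0 = p * k 0 := by
    have := congrArg Prod.fst h
    simp only [vec, Prod.fst_zero, h2] at this
    linarith
  have e1 : k 2 * y 1 = p * k 1 := by
    have := congrArg Prod.snd h
    simp only [vec, Prod.snd_zero, h2] at this
    linarith
  have hp' : Prime (p : ℤ) := Nat.prime_iff_prime_int.mp hp
  have hd : (p : ℤ) ∣ k 2 := by
    by_cases hy0 : y 0 = 0
    · have hy1 : y 1 ≠ 0 := fun h => hne ⟨hy0, h⟩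
      rcases hp'.dvd_or_dvd (⟨_, e1⟩ : (p : ℤ) ∣ k 2 * y 1) with h | h
      · exact h
      · exact absurd (Int.eq_zero_of_dvd_of_nonneg_of_lt h1 h1' h) hy1
    · rcases hp'.dvd_or_dvd (⟨_, e0⟩ : (p : ℤ) ∣ k 2 * y 0) with h | h
      · exact h
      · exact absurd (Int.eq_zero_of_dvd_of_nonneg_of_lt h0 h0' h) hy0
  have k2 : k 2 = 0 := Int.eq_zero_of_abs_lt_dvd hd hk2
  have hp0 : (p : ℤ) ≠ 0 := hp'.ne_zero
  rw [k2, zero_mul] at e0 e1
  apply hk
  ext i
  fin_cases i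
  · exact (mul_eq_zero.mp e0.symm).resolve_left hp0
  · exact (mul_eq_zero.mp e1.symm).resolve_left hp0
  · exact k2

end Crest.Agent.R115
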