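import Crest.Agent.R115.Free
import Crest.Agent.R115.Group

/-!
The metric space, its basic properties, and the combinatorial expansion inequality.
-/

set_option autoImplicit false

namespace Crest.Agent.R115

open Crest.AnalysisR

lemma iso {V I : Type} (Fs : Finset V) (K : Finset I)
    (vc : V → I → ℤ × ℤ) (σ : Bool × Bool → V → V) (g : Bool × Bool → V → I → I)
    (hmem : ∀ s, ∀ p ∈ Fs, σ s p ∈ Fs)
    (hinj : ∀ s, ∀ p ∈ Fs, ∀ p' ∈ Fs, σ s p = σ s p' → p = p')
    (hginj : ∀ s p, Function.Injective (g s p))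
    (hvec : ∀ s p k, vc (σ s p) (g s p k) = lin s (vc p k))
    (f : V → I → ℝ) (hf0 : ∀ p k, 0 ≤ f p k)
    (hsupp : ∀ p ∈ Fs, ∀ k, f p k ≠ 0 → k ∈ K ∧ vc p k ≠ 0) :
    2 * ∑ p ∈ Fs, ∑ k ∈ K, f p k ≤
      ∑ s, ∑ p ∈ Fs, ∑ k ∈ K, up s (vc p k) * (f p k - f (σ s p) (g s p k)) := by
  classical
  have h1 : ∀ s, ∑ z ∈ Fs ×ˢ K, up s (vc z.1 z.2) * f (σ s z.1) (g s z.1 z.2) ≤
      ∑ z ∈ Fs ×ˢ K, dn s (vc z.1 z.2) * f z.1 z.2 := by
    intro s
    set H : V × I → ℝ := fun z => dn s (vc z.1 z.2) * f z.1 z.2 with hH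
    set τ : V × I → V × I := fun z => (σ s z.1, g s z.1 z.2) with hτ
    have e1 : ∑ z ∈ Fs ×ˢ K, up s (vc z.1 z.2) * f (σ s z.1) (g s z.1 z.2) =
        ∑ z ∈ Fs ×ˢ K, H (τ z) := Finset.sum_congr rfl fun z _ => by
      simp only [hH, hτ, hvec, dn_lin]
    have hi : Set.InjOn τ (Fs ×ˢ K : Finset (V × I)) := by
      intro z hz z' hz' e
      have e2 : z.1 = z'.1 := hinj s _ (Finset.mem_product.mp hz).1 _ (Finset.mem_product.mp hz').1
        (congrArg Prod.fst e)
      have e3 : g s z.1 z.2 = g s z'.1 z'.2 := congrArg Prod.snd e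
      rw [← e2] at e3
      exact Prod.ext e2 (hginj s _ e3)
    rw [e1, ← Finset.sum_image (f := H) hi, ← Finset.sum_filter_ne_zero]
    refine Finset.sum_le_sum_of_subset_of_nonneg ?_ fun z _ _ =>
      mul_nonneg (dn_nonneg _ _) (hf0 _ _)
    intro z hz
    obtain ⟨hz1, hz2⟩ := Finset.mem_filter.mp hz
    obtain ⟨w, hw, rfl⟩ := Finset.mem_image.mp hz1
    have hw1 := hmem s _ (Finset.mem_product.mp hw).1
    exact Finset.mem_product.mpr ⟨hw1, (hsupp _ hw1 _ (right_ne_zero_of_mul hz2)).1⟩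
  have h2 : ∀ z ∈ Fs ×ˢ K, 2 * f z.1 z.2 + ∑ s, dn s (vc z.1 z.2) * f z.1 z.2 ≤
      ∑ s, up s (vc z.1 z.2) * f z.1 z.2 := by
    intro z hz
    rw [← Finset.sum_mul, ← Finset.sum_mul, ← add_mul]
    by_cases h : f z.1 z.2 = 0
    · simp [h]
    · exact mul_le_mul_of_nonneg_right
        (ponzi _ (hsupp _ (Finset.mem_product.mp hz).1 _ h).2) (hf0 _ _)
  have h3 := Finset.sum_le_sum h2
  rw [Finset.sum_add_distrib, ← Finset.mul_sum, Finset.sum_comm (s := Fs ×ˢ K),
    Finset.sum_comm (s := Fs ×ˢ K)] at h3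
  have h4 := Finset.sum_le_sum fun s (_ : s ∈ (Finset.univ : Finset (Bool × Bool))) => h1 s
  have e : ∑ s, ∑ p ∈ Fs, ∑ k ∈ K, up s (vc p k) * (f p k - f (σ s p) (g s p k)) =
      ∑ s, ∑ z ∈ Fs ×ˢ K, up s (vc z.1 z.2) * f z.1 z.2 -
        ∑ s, ∑ z ∈ Fs ×ˢ K, up s (vc z.1 z.2) * f (σ s z.1) (g s z.1 z.2) := by
    rw [← Finset.sum_sub_distrib]
    refine Finset.sum_congr rfl fun s _ => ?_
    rw [← Finset.sum_sub_distrib, Finset.sum_product]
    exact Finset.sum_congr rfl fun p _ => Finset.sum_congr rfl fun k _ => by ring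
  rw [e, ← Finset.sum_product' (f := fun p k => f p k)]
  linarith

/-- separation scale at level `j` -/
def rr (j : ℕ) : ℝ := 200 * (j + 1)

/-- auxiliary bound at level `j` -/
def WW (j : ℕ) : ℝ := j * (1 + 2 * rr j) + 2

/-- cut-off scale at level `j` -/
def rho (j : ℕ) : ℝ := 1000 * (WW j + 1) + rr j

/-- modulus at level `j` -/
noncomputable def NN (j : ℕ) : ℕ := ⌈2 * Real.exp (rho j + 20)⌉₊

lemma rr_pos (j : ℕ) : 0 < rr j := by unfold rr; positivity

lemma WW_pos (j : ℕ) : 0 < WW j := by have := rr_pos j; unfold WW; positivity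

lemma rr_le_rho (j : ℕ) : rr j ≤ rho j := by have := WW_pos j; unfold rho; linarith

lemma rho_pos (j : ℕ) : 0 < rho j := (rr_pos j).trans_le (rr_le_rho j)

lemma hNN (j : ℕ) : 2 * Real.exp (rho j + 20) ≤ NN j := Nat.le_ceil _

instance instNeZeroNN (j : ℕ) : NeZero (NN j) :=
  ⟨(Nat.ceil_pos.mpr (by positivity)).ne'⟩

/-- nonzero integer vectors -/
abbrev Y : Type := {v : Fin 3 → ℤ // v ≠ 0}

/-- the points of the space -/
abbrev MM : Type := Option (Σ j : ℕ, Y × Qt (NN j))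

/-- centres: one residue class at each level -/
abbrev Ctr : Type := (i : ℕ) → Qt (NN i)

/-- the cut-off function at level `j` with centre `X` -/
noncomputable def chiM (j : ℕ) (X : Ctr) : MM → ℝ
  | none => 0
  | some ⟨i, z⟩ => if i = j then chi (rho i) (NN i) (X i * z.2⁻¹) else 0

/-- the transported vector -/
noncomputable def clsM (X : Ctr) : MM → (Fin 3 → ℤ)
  | none => 0
  | some ⟨i, z⟩ => lift (rho i) (NN i) (X i * z.2⁻¹) • z.1.1

/-- level of a point -/
def lev : MM → ℕ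
  | none => 0
  | some ⟨i, _⟩ => i

/-- index set of the test functions -/
structure TI : Type where
  /-- level -/
  j : ℕ
  /-- centre -/
  X : Ctr
  /-- weight -/
  θ : (Fin 3 → ℤ) → ℝ
  h1 : ∀ k, |θ k| ≤ rho j
  h2 : ∀ k k', |θ k - θ k'| ≤ 2 * rr j

instance instNonemptyTI : Nonempty TI :=
  ⟨⟨0, 1, fun _ => 0, fun _ => by simpa using (rho_pos 0).le,
    fun _ _ => by simpa using (rr_pos 0).le⟩⟩

/-- the test functions -/
noncomputable def tf (τ : TI) (m : MM) : ℝ := chiM τ.j τ.X m * τ.θ (clsM τ.X m)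

lemma chiM_nonneg (j : ℕ) (X : Ctr) (m : MM) : 0 ≤ chiM j X m := by
  rcases m with _ | ⟨i, z⟩
  · exact le_rfl
  · simp only [chiM]; split_ifs
    · exact chi_nonneg _ _ _
    · exact le_rfl

lemma chiM_le_one (j : ℕ) (X : Ctr) (m : MM) : chiM j X m ≤ 1 := by
  rcases m with _ | ⟨i, z⟩
  · exact zero_le_one
  · simp only [chiM]; split_ifs
    · exact chi_le_one (rho_pos _) _ _
    · exact zero_le_one

lemma chiM_of_ne {j : ℕ} (X : Ctr) {m : MM} (h : lev m ≠ j) : chiM j X m = 0 := by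
  rcases m with _ | ⟨i, z⟩
  · rfl
  · simp only [chiM]; exact if_neg h

lemma tf_none (τ : TI) : tf τ none = 0 := by simp [tf, chiM]

lemma tf_of_ne (τ : TI) {m : MM} (h : lev m ≠ τ.j) : tf τ m = 0 := by
  simp [tf, chiM_of_ne _ h]

lemma abs_tf_le (τ : TI) (m : MM) : |tf τ m| ≤ rho (lev m) := by
  by_cases h : lev m = τ.j
  · rw [h, tf, abs_mul, abs_of_nonneg (chiM_nonneg _ _ _)]
    exact (mul_le_of_le_one_left (abs_nonneg _) (chiM_le_one _ _ _)).trans (τ.h1 _)
  · rw [tf_of_ne τ h, abs_zero]; exact (rho_pos _).le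

lemma bdd_tf (m m' : MM) : BddAbove (Set.range fun τ : TI => |tf τ m - tf τ m'|) :=
  ⟨rho (lev m) + rho (lev m'), by
    rintro _ ⟨τ, rfl⟩
    exact (abs_sub _ _).trans (add_le_add (abs_tf_le τ m) (abs_tf_le τ m'))⟩

/-- the supremum pseudo-distance -/
noncomputable def d1 (m m' : MM) : ℝ := ⨆ τ : TI, |tf τ m - tf τ m'|

lemma le_d1 (τ : TI) (m m' : MM) : |tf τ m - tf τ m'| ≤ d1 m m' := le_ciSup (bdd_tf m m') τ

lemma d1_nonneg (m m' : MM) : 0 ≤ d1 m m' :=
  (abs_nonneg _).trans (le_d1 (Classical.arbitrary _) m m')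

open Classical in
/-- the discrete distance -/
noncomputable def d0 (m m' : MM) : ℝ := if m = m' then 0 else 1

lemma d0_nonneg (m m' : MM) : 0 ≤ d0 m m' := by unfold d0; split_ifs <;> norm_num

lemma d0_le_one (m m' : MM) : d0 m m' ≤ 1 := by unfold d0; split_ifs <;> norm_num

lemma d0_of_ne {m m' : MM} (h : m ≠ m') : d0 m m' = 1 := if_neg h

/-- the metric -/
@[reducible] noncomputable def metMM : MetricSpace MM where
  dist m m' := d0 m m' + d1 m m'
  dist_self m := by simp [d0, d1]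
  dist_comm m m' := by
    have e0 : d0 m m' = d0 m' m := by simp only [d0, eq_comm]
    have e1 : d1 m m' = d1 m' m := by simp only [d1, abs_sub_comm]
    rw [e0, e1]
  dist_triangle a b c := by
    have e0 : d0 a c ≤ d0 a b + d0 b c := by
      by_cases h : a = b
      · subst h; have := d0_nonneg a a; linarith
      · rw [d0_of_ne h]; have := d0_nonneg b c; have := d0_le_one a c; linarith
    have e1 : d1 a c ≤ d1 a b + d1 b c :=
      ciSup_le fun τ => (abs_sub_le _ _ _).trans (add_le_add (le_d1 τ a b) (le_d1 τ b c))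
    linarith
  eq_of_dist_eq_zero := by
    intro a b h
    by_contra hne
    have := d1_nonneg a b
    rw [d0_of_ne hne] at h
    linarith

/-- the pointed metric space -/
@[reducible] noncomputable def PP : PointedMetric := ⟨MM, metMM, none⟩

attribute [local instance] metMM

lemma dist_def (m m' : MM) : dist m m' = d0 m m' + d1 m m' := rfl

lemma tf_lip (τ : TI) (m m' : MM) : |tf τ m - tf τ m'| ≤ dist m m' :=
  (le_d1 τ m m').trans (le_add_of_nonneg_left (d0_nonneg _ _))

lemma dist_le_of (m m' : MM) (c : ℝ) (h : ∀ τ : TI, |tf τ m - tf τ m'| ≤ c) :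
    dist m m' ≤ 1 + c := add_le_add (d0_le_one _ _) (ciSup_le h)

lemma one_le_dist {m m' : MM} (h : m ≠ m') : 1 ≤ dist m m' := by
  rw [dist_def, d0_of_ne h]; exact le_add_of_nonneg_right (d1_nonneg _ _)

lemma dist_none_le (m : MM) : dist m none ≤ 1 + rho (lev m) :=
  dist_le_of _ _ _ fun τ => by rw [tf_none, sub_zero]; exact abs_tf_le τ m

lemma dist_none_le_of_lt (m m' : MM) (h : lev m < lev m') : dist m none ≤ dist m m' := by
  have hne : m ≠ m' := fun e => by rw [e] at h; exact lt_irrefl _ h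
  rw [dist_def m m', d0_of_ne hne]
  refine dist_le_of _ _ _ fun τ => ?_
  by_cases h1 : lev m = τ.j
  · have := le_d1 τ m m'
    rwa [tf_of_ne τ (m := m') (by omega), ← tf_none τ] at this
  · rw [tf_of_ne τ h1, tf_none, sub_zero, abs_zero]; exact d1_nonneg _ _

theorem hasAP_PP : HasAP PP.FreeSpace :=
  hasAP_of_levels PP lev (fun j => 1 + rho j) dist_none_le_of_lt dist_none_le
    (fun _ _ h => one_le_dist h)

/-- the first basis vector -/
def e1 : Y := ⟨![1, 0, 0], by simp⟩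

/-- a point of level `j` -/
def pt (j : ℕ) (z : Y × Qt (NN j)) : MM := some ⟨j, z⟩

lemma chiM_pt (j : ℕ) (X : Ctr) (z : Y × Qt (NN j)) :
    chiM j X (pt j z) = chi (rho j) (NN j) (X j * z.2⁻¹) := by simp [chiM, pt]

lemma clsM_pt (j : ℕ) (X : Ctr) (z : Y × Qt (NN j)) :
    clsM X (pt j z) = lift (rho j) (NN j) (X j * z.2⁻¹) • z.1.1 := rfl

lemma lev_pt (j : ℕ) (z : Y × Qt (NN j)) : lev (pt j z) = j := rfl

lemma chi_one (j : ℕ) : 1 - 20 / rho j ≤ chi (rho j) (NN j) 1 := by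
  have h := ell_one
  have hρ := rho_pos j
  rw [(lift_eq (hNN j) (w := 1) (by linarith) (map_one _)).2]
  refine le_trans ?_ (le_max_right _ _)
  have : ell 1 / rho j ≤ 20 / rho j := div_le_div_of_nonneg_right h hρ.le
  linarith

/-- the constant test function -/
noncomputable def tiConst (j : ℕ) (X : Ctr) : TI :=
  ⟨j, X, fun _ => rho j, fun _ => by rw [abs_of_pos (rho_pos j)],
    fun _ _ => by have := rr_pos j; simp; linarith⟩

/-- the sign test function -/
noncomputable def tiSign (j : ℕ) (X : Ctr) (σ : (Fin 3 → ℤ) → ℝ) (hσ : ∀ k, |σ k| ≤ 1) : TI :=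
  ⟨j, X, fun k => rr j * σ k, fun k => by
    rw [abs_mul, abs_of_pos (rr_pos j)]
    exact (mul_le_of_le_one_right (rr_pos j).le (hσ k)).trans (rr_le_rho j), fun k k' => by
    rw [← mul_sub, abs_mul, abs_of_pos (rr_pos j), mul_comm]
    refine mul_le_mul_of_nonneg_right ((abs_sub _ _).trans ?_) (rr_pos j).le
    linarith [hσ k, hσ k']⟩

lemma chiM_lip (j : ℕ) (X : Ctr) (m m' : MM) :
    |chiM j X m - chiM j X m'| ≤ (rho j)⁻¹ * dist m m' := by
  have := tf_lip (tiConst j X) m m'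
  simp only [tf, tiConst] at this
  rw [← sub_mul, abs_mul, abs_of_pos (rho_pos j)] at this
  rw [le_inv_mul_iff₀ (rho_pos j)]
  linarith

lemma sign_lip (j : ℕ) (X : Ctr) (σ : (Fin 3 → ℤ) → ℝ) (hσ : ∀ k, |σ k| ≤ 1) (m m' : MM) :
    |chiM j X m * σ (clsM X m) - chiM j X m' * σ (clsM X m')| ≤ (rr j)⁻¹ * dist m m' := by
  have := tf_lip (tiSign j X σ hσ) m m'
  simp only [tf, tiSign] at this
  rw [show chiM j X m * (rr j * σ (clsM X m)) - chiM j X m' * (rr j * σ (clsM X m')) =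
    rr j * (chiM j X m * σ (clsM X m) - chiM j X m' * σ (clsM X m')) by ring,
    abs_mul, abs_of_pos (rr_pos j)] at this
  rwa [le_inv_mul_iff₀ (rr_pos j)]

lemma dist_anchor (j : ℕ) (z : Y × Qt (NN j)) : dist (pt j z) (pt j (e1, z.2)) ≤ 1 + 2 * rr j := by
  refine dist_le_of _ _ _ fun τ => ?_
  by_cases h : j = τ.j
  · obtain ⟨i, X, θ, h1, h2⟩ := τ
    obtain rfl : j = i := h
    simp only [tf, chiM_pt]
    rw [← mul_sub, abs_mul, abs_of_nonneg (chi_nonneg _ _ _)]
    exact (mul_le_of_le_one_left (abs_nonneg _) (chi_le_one (rho_pos _) _ _)).trans (h2 _ _)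
  · rw [tf_of_ne τ (m := pt j z) h, tf_of_ne τ (m := pt j (e1, z.2)) h]
    have := rr_pos j
    simp; linarith

/-- moving a point by a group element -/
noncomputable def mv (j : ℕ) (g : G) (z : Y × Qt (NN j)) : Y × Qt (NN j) :=
  (⟨g • z.1.1, (smul_ne_zero_iff_ne g).mpr z.1.2⟩, red (NN j) g * z.2)

lemma dist_edge (j : ℕ) {g : G} (hg : Sm g) (z : Y × Qt (NN j)) :
    dist (pt j z) (pt j (mv j g z)) ≤ 21 := by
  rw [show (21 : ℝ) = 1 + 20 by norm_num]
  refine dist_le_of _ _ _ fun τ => ?_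
  by_cases h : j = τ.j
  · obtain ⟨i, X, θ, h1, h2⟩ := τ
    obtain rfl : j = i := h
    simp only [tf, chiM_pt, clsM_pt]
    obtain ⟨e1, e2⟩ := shift (rho_pos j) (hNN j) 1 g⁻¹ hg.right (X j * z.2⁻¹)
      (X j * (mv j g z).2⁻¹) (by simp [mv, mul_assoc])
    by_cases hc : chi (rho j) (NN j) (X j * z.2⁻¹) ≠ 0 ∨
        chi (rho j) (NN j) (X j * (mv j g z).2⁻¹) ≠ 0
    · have e3 : lift (rho j) (NN j) (X j * (mv j g z).2⁻¹) • (mv j g z).1.1 =
          lift (rho j) (NN j) (X j * z.2⁻¹) • z.1.1 := by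
        rw [e2 hc]
        simp [mv, mul_smul]
      rw [e3, ← sub_mul, abs_mul, abs_sub_comm]
      calc _ ≤ 20 / rho j * rho j := mul_le_mul e1 (h1 _) (abs_nonneg _)
            (div_nonneg (by norm_num) (rho_pos j).le)
        _ = 20 := by have := (rho_pos j).ne'; field_simp
    · push Not at hc
      rw [hc.1, hc.2]; simp
  · rw [tf_of_ne τ (m := pt j z) h, tf_of_ne τ (m := pt j (mv j g z)) h]; simp

lemma recentre (j : ℕ) {g : G} (hg : Sm g) (X X' : Ctr) (hX : X' j = red (NN j) g * X j)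
    (σ : (Fin 3 → ℤ) → ℝ) (hσ : ∀ k, |σ k| ≤ 1) (m : MM) :
    |chiM j X m * σ (clsM X m) - chiM j X' m * σ (g⁻¹ • clsM X' m)| ≤ 20 / rho j := by
  have hρ := rho_pos j
  by_cases h : lev m = j
  · rcases m with _ | ⟨i, z⟩
    · simp only [chiM]; simp; positivity
    · obtain rfl : i = j := h
      change |chiM i X (pt i z) * σ (clsM X (pt i z)) -
        chiM i X' (pt i z) * σ (g⁻¹ • clsM X' (pt i z))| ≤ _
      simp only [chiM_pt, clsM_pt]
      obtain ⟨e1, e2⟩ := shift (rho_pos i) (hNN i) g 1 hg.left (X i * z.2⁻¹)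
        (X' i * z.2⁻¹) (by simp [hX, mul_assoc])
      by_cases hc : chi (rho i) (NN i) (X i * z.2⁻¹) ≠ 0 ∨ chi (rho i) (NN i) (X' i * z.2⁻¹) ≠ 0
      · have e3 : g⁻¹ • lift (rho i) (NN i) (X' i * z.2⁻¹) • z.1.1 =
            lift (rho i) (NN i) (X i * z.2⁻¹) • z.1.1 := by
          rw [e2 hc]
          simp [mul_smul]
        rw [e3, ← sub_mul, abs_mul, abs_sub_comm]
        exact (mul_le_of_le_one_right (abs_nonneg _) (hσ _)).trans e1
      · push Not at hc
        rw [hc.1, hc.2]; simp; positivity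
  · rw [chiM_of_ne _ h, chiM_of_ne _ h]; simp; positivity

lemma clsM_ne_zero {j : ℕ} {X : Ctr} {m : MM} (h : chiM j X m ≠ 0) : clsM X m ≠ 0 := by
  rcases m with _ | ⟨i, z⟩
  · exact absurd rfl h
  · exact (smul_ne_zero_iff_ne _).mpr z.1.2

theorem props_PP : PP.IsCountableSeparatedUnboundedNonproper := by
  refine ⟨inferInstanceAs (Countable MM), fun _ _ h => one_le_dist h, ?_, ?_⟩
  · intro hb
    obtain ⟨C, hC⟩ := Metric.isBounded_iff.mp hb
    obtain ⟨j, hj⟩ := exists_nat_gt (C + 20)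
    have h1 : dist (pt j (e1, 1)) none ≤ C := hC (Set.mem_univ _) (Set.mem_univ _)
    have h2 := tf_lip (tiConst j 1) (pt j (e1, 1)) none
    rw [tf_none, sub_zero] at h2
    simp only [tf, tiConst, chiM_pt] at h2
    have h3 := chi_one j
    have hρ := rho_pos j
    have h4 : (1 - 20 / rho j) * rho j = rho j - 20 := by field_simp
    have h5 : (j : ℝ) ≤ rho j := by
      have := rr_le_rho j
      have h6 : (0 : ℝ) ≤ j := Nat.cast_nonneg j
      unfold rr at this; linarith
    have h7 := mul_le_mul_of_nonneg_right h3 hρ.le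
    have h8 := le_abs_self (chi (rho j) (NN j) (1 : Qt (NN j)) * rho j)
    simp only [Pi.one_apply, inv_one, mul_one] at h2
    linarith
  · intro hp
    have hd : DiscreteTopology MM := by
      refine discreteTopology_iff_isOpen_singleton.mpr fun m => ?_
      have : ({m} : Set MM) = Metric.ball m 1 := by
        ext x
        simp only [Set.mem_singleton_iff, Metric.mem_ball]
        constructor
        · rintro rfl; simp
        · intro h; by_contra hne; linarith [one_le_dist hne]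
      rw [this]; exact Metric.isOpen_ball
    have hc : IsCompact (Metric.closedBall (none : MM) (1 + rho 0)) :=
      @isCompact_closedBall MM _ hp _ _
    refine Set.infinite_of_injective_forall_mem
      (f := fun n : ℕ => pt 0 (⟨![(n : ℤ) + 1, 0, 0], fun h => ?_⟩, 1)) ?_ ?_ hc.finite_of_discrete
    · have := congrFun h 0
      simp at this; omega
    · intro a b h
      simp only [pt, Option.some.injEq, Sigma.mk.injEq, heq_eq_eq, true_and, Prod.mk.injEq,
        and_true, Subtype.mk.injEq] at h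
      have := congrFun h 0
      simpa using this
    · intro n
      exact dist_none_le _

end Crest.Agent.R115
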